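import Crest.Agent.X262.Tr89.Ex
import Crest.Agent.X262.Tr89.Pb
import Crest.Agent.X262.Vb.Bas1
import Crest.Agent.X262.Vb.Defs
import Crest.Agent.X262.Cnt37.Core
import Crest.Agent.X262.Vb.Vir
import Crest.Agent.X262.Vb.Ax0
import Crest.Agent.X262.Str37.Main

-- ▼ part X262/Tr89/Blw
section

/-!
# Row 262, road B (helper89): the exceptional divisor over a smooth generic point

* `Sp p y η`     : the place `p` specialises the point `y` to `η`;
* `Sp.tr`, `Sp.pind` : `TR` in terms of the residues of the directions;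
* `exists_blw`   : the order along the ideal of `η` is a divisorial valuation;
* `TR.rz_eq`     : uniqueness;  `Sp.bnum_one` : the exceptional divisor is projective space;
* `idl_eq_of_dim`: a specialisation which keeps the dimension keeps the ideal.
-/

set_option autoImplicit false
set_option linter.unusedSectionVars false

noncomputable section

namespace Crest.Agent.X262.Tr89

open Crest.Agent.X277 Crest.Agent.X277.BD Crest.Agent.X277.Pst Crest.Agent.X277.BD.Cyc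
open Crest.Agent.X277.Neg (nv)
open Crest.Agent.X262.Geo
open Crest.Agent.X262.Lin62 (eft_of_top exists_hom bez)
open MvPolynomial WithZero
open List (replicate)
open IntermediateField (adjoin)
open Set (range)

theorem TR.of_isEquiv {A K ι Γ Γ' : Type*} [CommRing A] [Field K]
    [LinearOrderedCommGroupWithZero Γ] [LinearOrderedCommGroupWithZero Γ'] {v : Valuation K Γ}
    {w : Valuation K Γ'} {φ : A →+* K} {P : Ideal A} {s : ι → A} {t : K} (h : TR v φ P s t)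
    (e : v.IsEquiv w) : TR w φ P s t :=
  ⟨fun x => e.le_one_iff_le_one.1 (h.le x), fun x => e.lt_one_iff_lt_one.symm.trans (h.lt x), h.ne,
    e.lt_one_iff_lt_one.1 h.tlt, fun i => (e _ _).1 (h.sle i),
    fun d G hG h1 => h.ind d G hG (e.lt_one_iff_lt_one.2 h1)⟩

theorem exists_lift {A κ ι : Type*} [CommRing A] [Field κ] {ψ : A →+* κ} (hf : Frc ψ) {e : ℕ}
    {G : MvPolynomial ι κ} (hG : G.IsHomogeneous e) : ∃ d : κ, d ≠ 0 ∧
      ∃ G' : MvPolynomial ι A, G'.IsHomogeneous e ∧ map ψ G' = C d * G := by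
  classical
  have h : ∀ T : Finset (ι →₀ ℕ), ∃ b, ψ b ≠ 0 ∧ ∀ m ∈ T, ∃ a, ψ a = ψ b * coeff m G := by
    intro T
    induction T using Finset.induction_on with
    | empty => exact ⟨1, by simp, by simp⟩
    | insert m T _ ih =>
      obtain ⟨b, hb, ih⟩ := ih
      obtain ⟨a, b', hb', h⟩ := hf (coeff m G)
      refine ⟨b * b', by simp [hb, hb'], Finset.forall_mem_insert _ _ _ |>.2 ⟨⟨b * a, ?_⟩, ?_⟩⟩
      · rw [h, map_mul, map_mul, mul_assoc, mul_div_cancel₀ _ hb']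
      · intro m' hm'
        obtain ⟨a', h'⟩ := ih m' hm'
        exact ⟨a' * b', by rw [map_mul, map_mul, h']; ring⟩
  obtain ⟨b, hb, h⟩ := h G.support
  choose! a ha using h
  refine ⟨ψ b, hb, ∑ m ∈ G.support, monomial m (a m),
    IsHomogeneous.sum _ _ _ fun m hm => isHomogeneous_monomial _ ?_, ?_⟩
  · have := hG (mem_support_iff.1 hm)
    rwa [Finsupp.degree_eq_weight_one]
  · conv_rhs => rw [G.as_sum, Finset.mul_sum]
    rw [map_sum]
    exact Finset.sum_congr rfl fun m hm => by rw [map_monomial, ha m hm, C_mul_monomial]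

variable {k K κ E σ ι : Type} [Field k] [Field K] [Algebra k K] [Field κ] [Algebra k κ] [Field E]
  [Algebra k E] {y : σ → K} {η : σ → κ} {s : ι → MvPolynomial σ k} {t : K}

theorem march {v : Valuation K ℤᵐ⁰} {W : RZ k K} (e : v.IsEquiv W.v) :
    MulArchimedean W.1.ValueGroup := ⟨fun x y hy => by
  obtain ⟨a, rfl⟩ := W.1.valuation_surjective x
  obtain ⟨b, rfl⟩ := W.1.valuation_surjective y
  obtain ⟨n, hn⟩ := MulArchimedean.arch (v a) (e.one_lt_iff_one_lt.2 hy)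
  exact ⟨n, by rw [← map_pow] at hn ⊢; exact (e _ _).1 hn⟩⟩

theorem march_dvs [CharZero k] [Algebra.EssFiniteType k K] {W : RZ k K} (hW : Dvs W) :
    MulArchimedean W.1.ValueGroup := march fun _ _ => nv_le_iff hW

theorem TR.rz_eq [CharZero k] [Algebra.EssFiniteType k K] {A : Type} [CommRing A] {φ : A →+* K}
    {P : Ideal A} {s : ι → A} {t' : K} {W W' : RZ k K} (h : TR W.v φ P s t)
    (h' : TR W'.v φ P s t') (hW : Dvs W) (hW' : Dvs W') (hg : Gen φ P s) (hf : Frc φ) : W = W' :=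
  have := march_dvs hW
  have := march_dvs hW'
  Subtype.ext (ValuationSubring.ext _ _ fun z => by
    rw [← RZ.le_one_iff, ← RZ.le_one_iff, h.le_one_iff h' hg hf])

theorem TR.nv_eq [CharZero k] [Algebra.EssFiniteType k K] {A : Type} [CommRing A] {φ : A →+* K}
    {P : Ideal A} {s : ι → A} {W : RZ k K} (h : TR W.v φ P s t) (hW : Dvs W) (hg : Gen φ P s)
    (hf : Frc φ) : nv W t = exp (-1) :=
  (h.of_isEquiv fun _ _ => (nv_le_iff hW).symm).unif hg hf (nv_unif hW)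

theorem idl_eq_of_dim [CharZero k] [Algebra.EssFiniteType k K] [Algebra.EssFiniteType k κ]
    [Fintype σ] (hη : adjoin k (range η) = ⊤)
    (h : ∀ q : MvPolynomial σ k, aeval y q = 0 → aeval η q = 0) (hd : dim k K ≤ dim k κ)
    (q : MvPolynomial σ k) : aeval y q = 0 ↔ aeval η q = 0 := by
  refine ⟨h q, fun h1 => by_contra fun h2 => ?_⟩
  let e := Fintype.equivFin σ
  have h3 := (bez (y ∘ e.symm) (s := η ∘ e.symm)
    (by rwa [e.symm.surjective.range_comp]) (fun q hq => by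
      rw [← aeval_rename] at hq ⊢; exact h _ hq) (c := rename e q)
    (by rwa [aeval_rename, Function.comp_assoc, e.symm_comp_self, Function.comp_id])
    (by rwa [aeval_rename, Function.comp_assoc, e.symm_comp_self, Function.comp_id]) le_rfl).1
  omega

variable [Algebra κ E] [IsScalarTower k κ E] {p : Pl k K k E}

/-- the place `p` specialises `y` to `η` -/
structure Sp (p : Pl k K k E) (y : σ → K) (η : σ → κ) : Prop where
  lnr : Lnr p
  mem : ∀ i, y i ∈ p.V.1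
  res : ∀ i, p.r (y i) = algebraMap κ E (η i)

namespace Sp

theorem r_ev (h : Sp p y η) (q : MvPolynomial σ k) :
    p.r (aeval y q) = algebraMap κ E (aeval η q) := by
  rw [(r_aeval h.lnr h.mem q).2, funext h.res, ← aeval_algebraMap_apply]
  rfl

theorem lt_iff (h : Sp p y η) (q : MvPolynomial σ k) :
    p.V.v (aeval y q) < 1 ↔ aeval η q = 0 := by
  rw [← Pl.r_eq_zero (r_aeval h.lnr h.mem q).1, h.r_ev, map_eq_zero]

theorem r_eval₂ (h : Sp p y η) {u : ι → K} (hu : ∀ a, u a ∈ p.V.1)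
    (G : MvPolynomial ι (MvPolynomial σ k)) : eval₂ (evH k y) u G ∈ p.V.1 ∧
      p.r (eval₂ (evH k y) u G) = aeval (fun a => p.r (u a)) (map (evH k η) G) := by
  induction G using MvPolynomial.induction_on with
  | C a =>
    rw [eval₂_C, map_C, aeval_C]
    exact ⟨(r_aeval h.lnr h.mem a).1, h.r_ev a⟩
  | add G H hG hH =>
    rw [eval₂_add, map_add, map_add]
    exact ⟨add_mem hG.1 hH.1, by rw [Pl.r_add hG.1 hH.1, hG.2, hH.2]⟩
  | mul_X G a hG =>
    rw [eval₂_mul, eval₂_X, map_mul, map_mul, map_X, aeval_X]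
    exact ⟨mul_mem hG.1 (hu a), by rw [Pl.r_mul hG.1 (hu a), hG.2]⟩

theorem tr (h : Sp p y η) (ht : t ≠ 0) (hl : p.V.v t < 1)
    (hs : ∀ a, p.V.v (aeval y (s a)) ≤ p.V.v t)
    (hi : PInd κ fun a => p.r (aeval y (s a) / t)) : TR p.V.v (evH k y) (idl k η) s t where
  le q := RZ.le_one_iff.2 (r_aeval h.lnr h.mem q).1
  lt q := h.lt_iff q
  ne := ht
  tlt := hl
  sle := hs
  ind e G hG h1 m := by
    obtain ⟨h2, h3⟩ := h.r_eval₂ (u := fun a => aeval y (s a) / t)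
      (fun a => (RZ.le_iff ht).1 (hs a)) G
    have h4 := hi e _ (hG.map _) (h3.symm.trans ((Pl.r_eq_zero h2).2 h1))
    rw [RingHom.mem_ker, ← coeff_map, h4, coeff_zero]

variable [Fintype σ]

theorem pind (h : Sp p y η) (hη : adjoin k (range η) = ⊤)
    (hT : TR p.V.v (evH k y) (idl k η) s t) : PInd κ fun a => p.r (aeval y (s a) / t) := by
  intro e G hG h0
  obtain ⟨d, hd, G', h1, h2⟩ := exists_lift (frc_evH hη) hG
  obtain ⟨h3, h4⟩ := h.r_eval₂ (u := fun a => aeval y (s a) / t)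
    (fun a => (RZ.le_iff hT.ne).1 (hT.sle a)) G'
  rw [h2, map_mul, h0, mul_zero, Pl.r_eq_zero h3] at h4
  have h5 : map (evH k η) G' = 0 := by
    ext m
    rw [coeff_map, coeff_zero]
    exact hT.ind e G' h1 h4 m
  exact (mul_eq_zero.1 (h2.symm.trans h5)).resolve_left (by rwa [C_eq_zero])

variable [MulArchimedean p.V.1.ValueGroup]

theorem adjoin_top (h : Sp p y η) (hK : adjoin k (range y) = ⊤) (hsur : Function.Surjective p.φ)
    (hT : TR p.V.v (evH k y) (idl k η) s t) (hg : Gen (evH k y) (idl k η) s) :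
    adjoin κ (range fun a => p.r (aeval y (s a) / t)) = ⊤ := by
  refine top_unique fun x _ => ?_
  obtain ⟨z, rfl⟩ := hsur x
  rw [← p.r_coe]
  by_cases h0 : p.r z = 0
  · rw [h0]; exact zero_mem _
  obtain ⟨e, G, H, -, -, -, h2, h3⟩ := hT.exists_quot hg (frc_evH hK) (Pl.r_ne_zero_iff.1 h0)
  have h4 := h.r_eval₂ (u := fun a => aeval y (s a) / t) fun a => (RZ.le_iff hT.ne).1 (hT.sle a)
  have h5 : ∀ G : MvPolynomial ι κ, aeval (fun a => p.r (aeval y (s a) / t)) G ∈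
      adjoin κ (range fun a => p.r (aeval y (s a) / t)) := fun G =>
    IntermediateField.algebra_adjoin_le_adjoin _ _ (by
      rw [Algebra.adjoin_range_eq_range_aeval]; exact ⟨G, rfl⟩)
  rw [h3]
  refine (Pl.r_div (h4 G).1 h2).symm ▸ div_mem ?_ ?_
  · exact (h4 G).2.symm ▸ h5 _
  · exact (h4 H).2.symm ▸ h5 _

variable {n : ℕ} {s : Fin (n + 1) → MvPolynomial σ k}

theorem adjoin_top' (h : Sp p y η) (hK : adjoin k (range y) = ⊤) (hsur : Function.Surjective p.φ)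
    (hT : TR p.V.v (evH k y) (idl k η) s (aeval y (s 0))) (hg : Gen (evH k y) (idl k η) s) :
    adjoin κ (range fun i : Fin n => p.r (aeval y (s i.succ) / aeval y (s 0)) /
      p.r (aeval y (s 0) / aeval y (s 0))) = ⊤ := by
  refine top_unique (h.adjoin_top hK hsur hT hg ▸ IntermediateField.adjoin_le_iff.2 ?_)
  rw [div_self hT.ne, Pl.r_one]
  rintro _ ⟨a, rfl⟩
  refine Fin.cases ?_ (fun a => IntermediateField.subset_adjoin _ _ ⟨a, div_one _⟩) a
  simp only [div_self hT.ne, Pl.r_one]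
  exact one_mem _

theorem dim_eq [CharZero κ] (h : Sp p y η) (hK : adjoin k (range y) = ⊤)
    (hη : adjoin k (range η) = ⊤) (hsur : Function.Surjective p.φ)
    (hT : TR p.V.v (evH k y) (idl k η) s (aeval y (s 0))) (hg : Gen (evH k y) (idl k η) s) :
    dim κ E = n :=
  (dim_eq_card (h.adjoin_top' hK hsur hT hg) (h.pind hη hT).algInd).trans (Fintype.card_fin n)

theorem bnum_one [CharZero κ] [Algebra.EssFiniteType κ E] (h : Sp p y η)
    (hK : adjoin k (range y) = ⊤) (hη : adjoin k (range η) = ⊤) (hsur : Function.Surjective p.φ)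
    (hT : TR p.V.v (evH k y) (idl k η) s (aeval y (s 0))) (hg : Gen (evH k y) (idl k η) s) :
    bnum (replicate n (mxf κ fun a => p.r (aeval y (s a) / aeval y (s 0)))) = 1 :=
  bnum_proj ((h.pind hη hT).ne 0) (h.adjoin_top' hK hsur hT hg) (h.dim_eq hK hη hsur hT hg)

end Sp

/-- the exceptional divisor of the blow-up of a generically smooth centre -/
theorem exists_blw [CharZero k] [Fintype σ] [Algebra.EssFiniteType k K] {n : ℕ}
    {s : Fin (n + 1) → MvPolynomial σ k} (hy : AlgebraicIndependent k y)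
    (hK : adjoin k (range y) = ⊤) (hη : adjoin k (range η) = ⊤) (hs : ∀ a, aeval η (s a) = 0)
    (hli : LinearIndependent κ fun a => grd η (s a))
    (hd : Fintype.card σ = dim k κ + (n + 1)) :
    ∃ (W : RZ k K) (α : κ →ₐ[k] Rf W), Dvs W ∧ (∀ i, y i ∈ W.1) ∧
      (∀ i, (plV W).r (y i) = α (η i)) ∧ TR W.v (evH k y) (idl k η) s (aeval y (s 0)) := by
  have hg : Gen (evH k y) (idl k η) s := gen_evH hη hs hli (by simpa using hd.le) _
  obtain ⟨v, hv⟩ := exists_TR hy hK hs hli hg 0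
  have h0 : ∀ c : k, v (algebraMap k K c) ≤ 1 := fun c => by simpa using hv.le (C c)
  have hT : TR (rz v h0).v (evH k y) (idl k η) s (aeval y (s 0)) :=
    hv.of_isEquiv fun _ _ => (v_rz_le_iff v h0).symm
  have hA : MulArchimedean (rz v h0).1.ValueGroup := march fun _ _ => (v_rz_le_iff v h0).symm
  generalize rz v h0 = W at hT hA
  have hm : ∀ i, y i ∈ W.1 := fun i => RZ.le_one_iff.1 (by simpa using hT.le (X i))
  obtain ⟨α, hα⟩ := exists_hom hη (ρ := fun i => (plV W).r (y i)) fun q => by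
    obtain ⟨h1, h2⟩ := r_aeval (lnr_plV W) hm q
    rw [← h2, Pl.r_eq_zero h1]
    exact hT.lt q
  refine ⟨W, α, ?_, hm, fun i => (hα i).symm, hT⟩
  let _ := α.toRingHom.toAlgebra
  have : MulArchimedean (plV W).V.1.ValueGroup := hA
  have : IsScalarTower k κ (Rf W) := .of_algebraMap_eq fun c => (α.commutes c).symm
  have : CharZero κ := charZero_of_injective_algebraMap (algebraMap k κ).injective
  have hS : Sp (plV W) y η := ⟨lnr_plV W, hm, fun i => (hα i).symm⟩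
  have := eft_of_top hη
  have := eft_of_top (hS.adjoin_top hK (surj_plV W) hT hg)
  have : Algebra.EssFiniteType k (Rf W) := .comp k κ _
  refine dvs_of_dim (fun h => ?_) ?_
  · have h1 : W.v (aeval y (s 0))⁻¹ ≤ 1 := RZ.le_one_iff.2 (h ▸ ValuationSubring.mem_top _)
    rw [map_inv₀, inv_le_one₀ hT.pos] at h1
    exact hT.tlt.not_ge h1
  · rw [dim_eq_card hK hy, Loc.dim_tower k κ (Rf W), hS.dim_eq hK hη (surj_plV W) hT hg, hd,
      add_assoc]

end Crest.Agent.X262.Tr89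
end
end

-- ▼ part X262/Tr89/Trm
section

/-!
# Row 262, road B (helper89): a component whose configuration is defined over a subfield

* `itg_exc` : `∫_E Q(c1 l) Φ = ((-l)^{r})_{E/κ} ∫_κ Φ` for a configuration defined over `κ`;
* `lin_dv`  : the restriction of the zero divisor is minus the size of the direction;
* `itg_trm` : the integrand of `vir` on such a component;
* `cst I y` : the constant configuration, `itg_cst`.
-/

set_option autoImplicit false
set_option linter.unusedSectionVars false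

noncomputable section

namespace Crest.Agent.X262.Tr89

open Crest.Agent.X277 Crest.Agent.X277.BD Crest.Agent.X277.Pst Crest.Agent.X277.BD.Cyc
open Crest.Agent.X262.Geo Crest.Agent.X262.Hb Crest.Agent.X262.Vb Crest.Agent.X262.Vb.Cfg
open Crest.Agent.X262.Node22 (scl chr vec chr_ne mem_Eb)
open List (replicate)
open Set (range)
open IsScalarTower (toAlgHom)

variable {J : Type} [Fintype J] [DecidableEq J] {io : J → Type} [∀ j, Fintype (io j)]
  [∀ j, DecidableEq (io j)] {A : Type} [Fintype A] {B : Th} {T : Tgt io A}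
  {I M : Type} [Fintype I] {K κ E : Type} [Field K] [Algebra ℂ K] [Field κ] [Algebra ℂ κ]
  [Field E] [Algebra ℂ E] {Φ : MFam B io M} {r : ℕ}

theorem mcls_map (hΦ : MCls B T Φ) [Algebra.EssFiniteType ℂ κ] [Algebra.EssFiniteType ℂ E]
    (α : κ →ₐ[ℂ] E) {y : M → Pnt io κ} (h : ∀ q, Vb.NZ (y q)) (hO : ∀ q, T.On (y q)) :
    (Φ E fun q => mapP α (y q)) = B.pb (LP.hom α) (Φ κ y) := by
  rw [hΦ.nat κ E (LP.hom α) y (fun q => prim_hom α (h q)) hO]
  simp only [redP_hom]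

theorem lin_dv {z : Cfg io I K} {p : Pl ℂ K ℂ E} (hz : z.Pr p.V) {t : K} (h0 : t ≠ 0)
    (h1 : ∀ x, p.V.v (z.sv T x) ≤ p.V.v t) (h2 : ∃ x, p.V.v (z.sv T x) = p.V.v t) :
    (z.dv T).val p.V = p.V.v t⁻¹ ∧
      Lin (-p.rs (z.dv T)) (sz (fun x => p.r (z.sv T x / t)) ((z.red0 p).ea T)) := by
  obtain ⟨x, hx⟩ := h2
  have h3 : z.sv T ≠ 0 := fun h => by
    rw [h, Pi.zero_apply, map_zero] at hx
    exact (RZ.pos h0).ne hx
  have h4 : nm (z.ea T) p.V (z.sv T) = p.V.v t :=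
    le_antisymm (nm_le.2 fun x => by rw [hz.val_ea, mul_one]; exact h1 x)
      (by simpa [hz.val_ea, hx] using le_nm (z.ea T) p.V (z.sv T) x)
  have h5 : (z.dv T).val p.V = p.V.v t⁻¹ := by rw [dv, val_neg, val_sz h3, h4, map_inv₀]
  have h6 : nm (z.ea T) p.V (t⁻¹ • z.sv T) = 1 := by
    rw [nm_smul, h4, ← map_mul, inv_mul_cancel₀ h0, map_one]
  have h7 : z.dv T - pr ℂ t⁻¹ = -sz (t⁻¹ • z.sv T) (z.ea T) := by
    rw [sz_smul h3 (inv_ne_zero h0), dv]; abel
  refine ⟨h5, ?_⟩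
  have h8 := (Pl.lin_rs h5.symm).neg
  rw [h7, Pl.res_neg (by rw [val_sz (smul_ne_zero (inv_ne_zero h0) h3), h6]), neg_neg,
    res_sz p (hz.val_ea T) h6, ← ea_red0 T hz] at h8
  simpa only [Pi.smul_apply, smul_eq_mul, ← div_eq_inv_mul] using h8

section Tower

variable [Algebra κ E] [IsScalarTower ℂ κ E]

theorem ex_eq {P : Type} [Fintype P] (g : P → E) (U : Submodule κ (P → κ)) :
    ex g U = sclS g (mapS (toAlgHom ℂ κ E) U) := by
  rw [ex, sclS, mapS, Submodule.map_span]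
  congr 1
  ext w
  exact ⟨fun ⟨u, hu, h⟩ => ⟨_, ⟨u, hu, rfl⟩, h⟩, fun ⟨_, ⟨u, hu, rfl⟩, h⟩ => ⟨u, hu, h⟩⟩

theorem up_sz {P : Type} [Fintype P] {w : P → E} (hw : w ≠ 0) {a : P → BD ℂ E}
    (ha : ∀ x, up κ (a x) = 0) : up κ (sz w a) = mxf κ w := by
  have h1 : ∀ (V : RZ κ E) x, (a x).val (V.dn ℂ) = 1 := fun V x =>
    (val_up (a x) V).symm.trans (by rw [ha]; rfl)
  refine eq_mxf (fun i V => ?_) fun V => ?_
  · have h2 := le_nm a (V.dn ℂ) w i
    rw [h1, mul_one, ← val_sz hw] at h2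
    exact h2.trans_eq (val_up (sz w a) V).symm
  · obtain ⟨i, -, h2⟩ := exists_nm a (V.dn ℂ) hw
    rw [h1, mul_one, ← val_sz hw] at h2
    exact ⟨i, h2.trans (val_up (sz w a) V).symm⟩

theorem up_ea (z : Cfg io I κ) (x : A × I) : up κ ((z.map (toAlgHom ℂ κ E)).ea T x) = 0 := by
  rw [ea_map]
  exact up_pb _ (fun _ => rfl) _

variable [Algebra.EssFiniteType ℂ κ] [Algebra.EssFiniteType ℂ E] [CharZero κ]
  [Algebra.EssFiniteType κ E]

theorem itg_exc (hB : B.Ax) (hΦ : MCls B T Φ) {z₀ : Cfg io I κ} (hz : z₀.NZ) (hO : z₀.On T)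
    (hr : Module.finrank κ (z₀.Eb T) = r + 1) (hd : r + dim ℂ κ ≤ dim ℂ E) {z : Cfg io I E}
    (h : Geq (z₀.map (toAlgHom ℂ κ E)) z) (m : M → I) (l : BD ℂ E) :
    B.itg E (exc B T z (B.c1 l) * Φ E fun q => z.y (m q)) =
      bnum (replicate r (up κ (-l))) * B.itg κ (Φ κ fun q => z₀.y (m q)) := by
  obtain ⟨g, hg, rfl⟩ := h
  have h1 := hΦ.scl E (fun q => mapP (toAlgHom ℂ κ E) (z₀.y (m q))) (fun q => g (m q))
    (fun q => hg _) (fun q => (nz_map _).2 (hz _)) fun q => (Vb.on_map T _).2 (hO _)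
  rw [mcls_map hΦ _ (fun q => hz (m q)) fun q => hO (m q)] at h1
  have h2 : (Φ E fun q => ((z₀.map (toAlgHom ℂ κ E)).gau g).y (m q)) =
      B.pb (LP.hom (toAlgHom ℂ κ E)) (Φ κ fun q => z₀.y (m q)) := h1
  have h3 : ((z₀.map (toAlgHom ℂ κ E)).gau g).Eb T =
      ex (fun x : A × I => chr (g x.2) (T.k x.1)) (z₀.Eb T) := by rw [Eb_gau T hg, Eb_map, ex_eq]
  have h4 : ∀ x : A × I, up κ (((z₀.map (toAlgHom ℂ κ E)).gau g).ea T x) =
      pr κ (chr (g x.2) (T.k x.1)) := fun x => by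
    rw [ea_gau T (hz.map _) hg, map_add, up_ea, zero_add, up_pr]
  have h5 := itg_cq hB (g := fun x : A × I => chr (g x.2) (T.k x.1)) (fun x => chr_ne (hg x.2) _)
    h4 hr hd l (Φ κ fun q => z₀.y (m q))
  rw [h2, exc, h3, h5]

end Tower

section Trm

variable [CharZero κ]

theorem itg_trm (hB : B.Ax) (hΦ : MCls B T Φ) [Algebra.EssFiniteType ℂ K] {W : RZ ℂ K}
    (hW : Dvs W) [Algebra κ (Rf W)] [IsScalarTower ℂ κ (Rf W)] [Algebra.EssFiniteType ℂ κ]
    [Algebra.EssFiniteType κ (Rf W)] {z z' : Cfg io I K} (hz : Geq z z') (hP : z'.Pr W) {z₀ : Cfg io I κ}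
    (h : z'.red0 (plV W) = z₀.map (toAlgHom ℂ κ (Rf W))) (hO : z₀.On T)
    (hr : Module.finrank κ (z₀.Eb T) = r + 1) (hd : r + dim ℂ κ ≤ dim ℂ (Rf W)) {t : K}
    (h0 : t ≠ 0) (h1 : ∀ x, W.v (z'.sv T x) ≤ W.v t) (h2 : ∃ x, W.v (z'.sv T x) = W.v t)
    (m : M → I) : B.itg (Rf W) (trm B T z m Φ W) =
      bnum (replicate r (mxf κ fun x => (plV W).r (z'.sv T x / t))) *
        B.itg κ (Φ κ fun q => z₀.y (m q)) := by
  have := essFT_Rf hW
  have h3 : z₀.NZ := fun q => (nz_map (toAlgHom ℂ κ (Rf W))).1 (by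
    have h4 := Pr.nz_red0 (p := plV W) hP q
    rwa [h] at h4)
  rw [trm, hB.pb_c1, itg_exc hB hΦ h3 hO hr hd (h ▸ (hz.red_red0 (p := plV W) hP).symm)]
  congr 2
  have h5 := (lin_dv (T := T) (p := plV W) hP h0 h1 h2).2.up κ
  rw [hz.dv T (hz.symm.nz hP.nz), h, up_sz _ (up_ea z₀)] at h5
  · exact bnum_rep h5 r
  · obtain ⟨x, hx⟩ := h2
    refine Function.ne_iff.2 ⟨x, Pl.r_ne_zero_iff.2 ?_⟩
    change W.v _ = 1
    rw [map_div₀, hx, div_self (RZ.pos h0).ne']

end Trm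

/-! ### constant configurations -/

variable (I) in
/-- the configuration of a constant map -/
def cst (y : Pnt io K) : Cfg io I K := ⟨fun _ => y, fun _ => K ∙ fun _ => 1⟩

variable {y y' : Pnt io K}

theorem mem_one {u : I → K} : u ∈ (K ∙ fun _ : I => (1 : K)) ↔ ∃ a, u = fun _ => a := by
  rw [Submodule.mem_span_singleton]
  exact exists_congr fun a => by rw [eq_comm, show (a • fun _ : I => (1 : K)) = fun _ => a from
    funext fun _ => mul_one a]

theorem cst_gau {c : J → K} (hc : ∀ j, c j ≠ 0) (y : Pnt io K) :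
    (cst I y).gau (fun _ => c) = cst I (scl c y) := by
  refine Cfg.ext (fun _ => rfl) fun κ => ?_
  ext u
  rw [gau_V, mem_sclS' fun _ => chr_ne hc κ]
  simp only [cst, mem_one]
  refine ⟨fun ⟨a, h⟩ => ⟨chr c κ * a, funext fun q => ?_⟩, fun ⟨a, h⟩ => ⟨_, by rw [h]⟩⟩
  rw [← congrFun h q, mul_inv_cancel_left₀ (chr_ne hc κ)]

theorem redS_one (p : Pl ℂ K ℂ E) : redS p (K ∙ fun _ : I => (1 : K)) = E ∙ fun _ => 1 := by
  refine le_antisymm (redS_le fun u hu _ => ?_) ((Submodule.span_singleton_le_iff_mem _ _).2 ?_)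
  · obtain ⟨a, rfl⟩ := mem_one.1 hu
    exact mem_one.2 ⟨_, rfl⟩
  · simpa using mem_redS p (Submodule.mem_span_singleton_self fun _ : I => (1 : K))
      fun _ => one_mem _

theorem cst_red0 (p : Pl ℂ K ℂ E) (y : Pnt io K) : (cst I y).red0 p = cst I (redP p y) :=
  Cfg.ext (fun _ => rfl) fun _ => redS_one p

theorem cst_map (α : K →ₐ[ℂ] E) (y : Pnt io K) : (cst I y).map α = cst I (mapP α y) := by
  rw [← red0_hom, cst_red0, redP_hom]

theorem finrank_cst [Nonempty I] (y : Pnt io K) :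
    Module.finrank K ((cst I y).Eb T) = Module.finrank K (T.Nm y) := by
  have h : (cst I y).Eb T = (T.Nm y).map (LinearMap.funLeft K K Prod.fst) := by
    ext σ
    rw [mem_Eb]
    simp only [cst, mem_one]
    obtain ⟨q₀⟩ := ‹Nonempty I›
    refine ⟨fun ⟨h1, h2⟩ => ⟨_, h2 q₀, funext fun x => ?_⟩, ?_⟩
    · obtain ⟨a, ha⟩ := h1 x.1
      exact (congrFun ha q₀).trans (congrFun ha x.2).symm
    · rintro ⟨n, hn, rfl⟩
      exact ⟨fun a => ⟨n a, rfl⟩, fun _ => hn⟩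
  rw [h]
  exact (Submodule.equivMapOfInjective _
    (LinearMap.funLeft_injective_of_surjective K K _ Prod.fst_surjective) _).finrank_eq.symm

/-- the integrand on a component of the space of constant maps -/
theorem itg_cst (hB : B.Ax) (hΦ : MCls B T Φ) [Nonempty I] [Algebra.EssFiniteType ℂ K]
    {W : RZ ℂ K} (hW : Dvs W) [Algebra κ (Rf W)] [IsScalarTower ℂ κ (Rf W)]
    [Algebra.EssFiniteType ℂ κ] [CharZero κ] [Algebra.EssFiniteType κ (Rf W)] {c : J → K}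
    (hc : ∀ j, c j ≠ 0) (hP : Prim W (scl c y))
    {η : Pnt io κ} (h : redP (plV W) (scl c y) = mapP (toAlgHom ℂ κ (Rf W)) η) (hO : T.On η)
    (hr : Module.finrank κ (T.Nm η) = r + 1) (hd : r + dim ℂ κ ≤ dim ℂ (Rf W)) {t : K}
    (h0 : t ≠ 0) (h1 : ∀ a, W.v (pv (scl c y) (T.F a)) ≤ W.v t)
    (h2 : ∃ a, W.v (pv (scl c y) (T.F a)) = W.v t) (m : M → I) :
    B.itg (Rf W) (trm B T (cst I y) m Φ W) =
      bnum (replicate r (mxf κ fun a => (plV W).r (pv (scl c y) (T.F a) / t))) *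
        B.itg κ (Φ κ fun _ => η) := by
  obtain ⟨a, ha⟩ := h2
  obtain ⟨q⟩ := ‹Nonempty I›
  have h3 : (plV W).r (pv (scl c y) (T.F a) / t) ≠ 0 := Pl.r_ne_zero_iff.2 (by
    change W.v _ = 1
    rw [map_div₀, ha, div_self (RZ.pos h0).ne'])
  rw [itg_trm hB hΦ hW (z' := cst I (scl c y)) (z₀ := cst I η)
    ⟨fun _ => c, fun _ => hc, (cst_gau hc y).symm⟩ (fun _ => hP) (by rw [cst_red0, cst_map, h])
    (fun _ => hO) (by rw [finrank_cst, hr]) hd h0 (fun x => h1 x.1) ⟨(a, q), ha⟩ m]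
  congr 4
  exact Lin62.mxf_congr ⟨(a, q), h3⟩ (fun x => Submodule.subset_span ⟨x.1, rfl⟩)
    fun a => Submodule.subset_span ⟨(a, q), rfl⟩

end Crest.Agent.X262.Tr89
end
end

-- ▼ part X262/Dg87/Aff
section

/-!
# Row 262, road B (helper87): affine charts at a generic point

* `exists_hmg` : every polynomial in the affine coordinates is a dehomogenisation;
* `gen_af`, `indep_af`, `GenPt.spec` : generators, independence, specialisation;
* `exists_eqs` : equations with independent differentials.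
-/

set_option autoImplicit false
set_option linter.unusedSectionVars false

noncomputable section

namespace Crest.Agent.X262.Dg87

open Crest.Agent.X277 Crest.Agent.X277.BD
open Crest.Agent.X262.Vb Crest.Agent.X262.Tr89 Crest.Agent.X262.Cnt37
open Crest.Agent.X262.Node22 (scl chr vec vsc chr_ne pv_scl jac_apply jac_euler)
open MvPolynomial
open IntermediateField (adjoin)
open Set (range)

variable {J : Type} [Fintype J] [DecidableEq J] {io : J → Type} [∀ j, Fintype (io j)]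
  [∀ j, DecidableEq (io j)] {A : Type} [Fintype A] {T : Tgt io A} {c : ℕ}
  {K E : Type} [Field K] [Algebra ℂ K] [Field E] [Algebra ℂ E] {i₀ : (j : J) → io j}
  {y : Pnt io K}

theorem mh_X (v : Vr io) : MH (X v) (Pi.single v.1 1) := isWeightedHomogeneous_X _ _ v

theorem exists_piv (i₀ : (j : J) → io j) (κ : J → ℕ) : ∃ q, MH q κ ∧ dhm i₀ q = 1 := by
  refine ⟨∏ j, X ⟨j, i₀ j⟩ ^ κ j, ?_, by simp [dhm]⟩
  have h := IsWeightedHomogeneous.prod (R := ℂ) Finset.univ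
    (fun j => (X ⟨j, i₀ j⟩ : MvPolynomial (Vr io) ℂ) ^ κ j) (fun j => κ j • Pi.single j 1)
    (w := fun v : Vr io => (Pi.single v.1 1 : J → ℕ)) fun j _ => (mh_X ⟨j, i₀ j⟩).pow (κ j)
  rwa [show ∑ j, κ j • (Pi.single j 1 : J → ℕ) = κ from funext fun j => by
    simp [Finset.sum_apply, Pi.single_apply]] at h

theorem exists_hmg (i₀ : (j : J) → io j) (p : MvPolynomial (Af i₀) ℂ) :
    ∃ q κ, MH q κ ∧ dhm i₀ q = p := by
  induction p using MvPolynomial.induction_on with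
  | C a => exact ⟨C a, 0, isWeightedHomogeneous_C _ a, by simp [dhm]⟩
  | add p p' hp hp' =>
    obtain ⟨q, κ, h1, rfl⟩ := hp
    obtain ⟨q', κ', h2, rfl⟩ := hp'
    obtain ⟨u, h3, h4⟩ := exists_piv i₀ κ
    obtain ⟨u', h5, h6⟩ := exists_piv i₀ κ'
    exact ⟨q * u' + u * q', κ + κ', (h1.mul h5).add (h3.mul h2), by simp [h4, h6]⟩
  | mul_X p v hp =>
    obtain ⟨q, κ, h1, rfl⟩ := hp
    exact ⟨q * X ⟨v.1, v.2.1⟩, _, h1.mul (mh_X _), by simp [dhm, v.2.2]⟩

theorem card_af (i₀ : (j : J) → io j) : Fintype.card (Af i₀) = adim io := by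
  rw [← Nat.card_eq_fintype_card, card_Af]
  rfl

theorem gen_af (hy : ∀ j, y j (i₀ j) ≠ 0) (h : adjoin ℂ {t | ∃ j i i', t = y j i / y j i'} = ⊤) :
    adjoin ℂ (range (af i₀ y)) = ⊤ := by
  have h1 : ∀ j i, y j i / y j (i₀ j) ∈ adjoin ℂ (range (af i₀ y)) := fun j i => by
    by_cases hi : i = i₀ j
    · rw [hi, div_self (hy j)]; exact one_mem _
    · exact IntermediateField.subset_adjoin _ _ ⟨⟨j, i, hi⟩, rfl⟩
  refine top_unique (h ▸ IntermediateField.adjoin_le_iff.2 ?_)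
  rintro _ ⟨j, i, i', rfl⟩
  rw [← div_div_div_cancel_right₀ (hy j)]
  exact div_mem (h1 j i) (h1 j i')

theorem indep_af (hy : ∀ j, y j (i₀ j) ≠ 0)
    (h : adjoin ℂ {t | ∃ j i i', t = y j i / y j i'} = ⊤) (hd : adim io ≤ dim ℂ K) :
    AlgebraicIndependent ℂ (af i₀ y) :=
  algInd_of_dim (gen_af hy h) (by rwa [card_af])

/-- a generic point of the ambient space satisfies no equation -/
theorem pv_ne (hy : NZ y) (h : adjoin ℂ {t | ∃ j i i', t = y j i / y j i'} = ⊤)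
    (hd : adim io ≤ dim ℂ K) {q : MvPolynomial (Vr io) ℂ} {κ : J → ℕ} (hq : MH q κ) (h0 : q ≠ 0) :
    pv y q ≠ 0 := fun h1 => by
  choose i₁ hi using hy
  exact h0 (eq_zero_of_indep hi (indep_af hi h hd) hq h1)

theorem pv_X (y : Pnt io K) (v : Vr io) : pv y (X v) = y v.1 v.2 := aeval_X _ _

theorem piv_ne (h : GenPt T c y) {η : Pnt io E} (hη : ∀ j, η j (i₀ j) ≠ 0) (hO : T.On η) (j : J) :
    y j (i₀ j) ≠ 0 := fun h0 =>
  hη j ((pv_X η ⟨j, i₀ j⟩).symm.trans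
    (h.irr _ _ (mh_X ⟨j, i₀ j⟩) ((pv_X _ _).trans h0) E η (fun j => ⟨_, hη j⟩) hO))

theorem spec (h : GenPt T c y) {η : Pnt io E} (hη : ∀ j, η j (i₀ j) ≠ 0) (hO : T.On η)
    (p : MvPolynomial (Af i₀) ℂ) (hp : aeval (af i₀ y) p = 0) : aeval (af i₀ η) p = 0 := by
  obtain ⟨q, κ, h1, rfl⟩ := exists_hmg i₀ p
  have h2 := piv_ne h hη hO
  rw [aeval_dhm h2 h1, mul_eq_zero, or_iff_right (chr_ne (fun j => inv_ne_zero (h2 j)) _)] at hp
  rw [aeval_dhm hη h1, h.irr q κ h1 hp E η (fun j => ⟨_, hη j⟩) hO, mul_zero]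

variable (i₀) in
/-- the coordinates which are one at the pivots -/
def nrm (y : Pnt io K) : Pnt io K := scl (fun j => (y j (i₀ j))⁻¹) y

theorem nrm_apply (y : Pnt io K) (j : J) (i : io j) : nrm i₀ y j i = y j i / y j (i₀ j) :=
  (div_eq_inv_mul _ _).symm

theorem pv_nrm' (hy : ∀ j, y j (i₀ j) ≠ 0) (q : MvPolynomial (Vr io) ℂ) :
    pv (nrm i₀ y) q = aeval (af i₀ y) (dhm i₀ q) := by
  rw [dhm, comp_aeval_apply, pv]
  congr 2
  funext v
  split_ifs with h
  · rw [map_one, nrm_apply, h, div_self (hy _)]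
  · rw [aeval_X, nrm_apply, af]

theorem pderiv_dhm (v : Af i₀) (q : MvPolynomial (Vr io) ℂ) :
    pderiv v (dhm i₀ q) = dhm i₀ (pderiv ⟨v.1, v.2.1⟩ q) := by
  induction q using MvPolynomial.induction_on with
  | C a => simp [dhm]
  | add p q hp hq => simp [hp, hq]
  | mul_X p w hp =>
    have h : pderiv v (dhm i₀ (X w)) = dhm i₀ (pderiv ⟨v.1, v.2.1⟩ (X w)) := by
      obtain ⟨j, i, hi⟩ := v
      by_cases h1 : w = ⟨j, i⟩
      · subst h1
        simp [dhm, hi]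
      · rw [pderiv_X_of_ne h1, map_zero, dhm, aeval_X]
        split_ifs with h2
        · simp
        · exact pderiv_X_of_ne fun h3 =>
            h1 (congrArg (fun u : Af i₀ => (⟨u.1, u.2.1⟩ : Vr io)) h3)
    rw [map_mul, Derivation.leibniz, Derivation.leibniz, hp, h]
    simp

theorem finrank_grd (hy : ∀ j, y j (i₀ j) ≠ 0) (hO : T.On y) :
    Module.finrank K (Submodule.span K (range fun a => grd (af i₀ y) (dhm i₀ (T.F a)))) =
      Module.finrank K (T.Nm (nrm i₀ y)) := by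
  let M : Matrix A (Af i₀) K := Matrix.of fun a => grd (af i₀ y) (dhm i₀ (T.F a))
  have hM : ∀ a v, M a v = pv (nrm i₀ y) (pderiv ⟨v.1, v.2.1⟩ (T.F a)) := fun a v => by
    rw [pv_nrm' hy, ← pderiv_dhm]; rfl
  have hO' : T.On (nrm i₀ y) := (on_scl_iff T fun j => inv_ne_zero (hy j)).2 hO
  have h1 : ∀ w : Vr io → K, (∀ j, w ⟨j, i₀ j⟩ = 0) →
      T.jac (nrm i₀ y) w = M.mulVec fun v => w ⟨v.1, v.2.1⟩ := fun w hw => by
    funext a
    rw [jac_apply, Matrix.mulVec, dotProduct, Fintype.sum_sigma, Fintype.sum_sigma]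
    refine Finset.sum_congr rfl fun j _ => ?_
    rw [Fintype.sum_eq_add_sum_subtype_ne _ (i₀ j), hw, mul_zero, zero_add]
    exact Finset.sum_congr rfl fun i _ => by rw [hM]; rfl
  have h2 : T.Nm (nrm i₀ y) = LinearMap.range M.mulVecLin := by
    refine le_antisymm ?_ ?_
    · rintro _ ⟨w, rfl⟩
      refine ⟨_, (h1 (w - vsc (fun j => w ⟨j, i₀ j⟩) (vec (nrm i₀ y))) fun j => ?_).symm.trans ?_⟩
      · change w _ - w _ * nrm i₀ y j (i₀ j) = 0
        rw [nrm_apply, div_self (hy j), mul_one, sub_self]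
      · rw [map_sub, jac_euler T hO', sub_zero]
    · rintro _ ⟨u, rfl⟩
      refine ⟨fun v => if h : v.2 = i₀ v.1 then 0 else u ⟨v.1, v.2, h⟩, (h1 _ (by simp)).trans ?_⟩
      rw [Matrix.mulVecLin_apply]
      congr 1
      funext v
      exact dif_neg v.2.2
  rw [h2]
  exact (Matrix.rank_eq_finrank_span_row M).symm

theorem exists_eqs (hy : ∀ j, y j (i₀ j) ≠ 0) (hO : T.On y) {n : ℕ}
    (h : Module.finrank K (T.Nm (nrm i₀ y)) = n) : ∃ g : Fin n → A,
      LinearIndependent K fun b => grd (af i₀ y) (dhm i₀ (T.F (g b))) := by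
  rw [← finrank_grd hy hO] at h
  obtain ⟨f, h1, -, h2⟩ := Submodule.exists_fun_fin_finrank_span_eq K
    (range fun a => grd (af i₀ y) (dhm i₀ (T.F a)))
  subst h
  choose g hg using h1
  exact ⟨g, by simpa only [hg] using h2⟩

end Crest.Agent.X262.Dg87
end
end

-- ▼ part X262/Dg87/Defs
section

/-!
# Row 262, road B (helper87): the one point statement behind the degree zero axiom
-/

set_option autoImplicit false
set_option linter.unusedSectionVars false

noncomputable section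

namespace Crest.Agent.X262.Dg87

open Crest.Agent.X277 Crest.Agent.X277.BD Crest.Agent.X277.Pst
open Crest.Agent.X262.Hb Crest.Agent.X262.Vb

/-- the configuration of one point -/
def one {J : Type} {io : J → Type} {K : Type} [Field K] (Y : Pnt io K) : Cfg io Unit K :=
  ⟨fun _ => Y, fun _ => ⊤⟩

/-- the virtual number of the generic point of the ambient space -/
def OneStmt : Prop :=
  ∀ (B : Th), B.Ax → ∀ {J : Type} [Fintype J] [DecidableEq J] {io : J → Type}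
    [∀ j, Fintype (io j)] [∀ j, DecidableEq (io j)] {A : Type} [Fintype A] (T : Tgt io A) (c : ℕ),
    Smo T c → ∀ {K₀ : Type} [Field K₀] [Algebra ℂ K₀] [Algebra.EssFiniteType ℂ K₀]
    (y₀ : Pnt io K₀), GenPt T c y₀ → ∀ {K : Type} [Field K] [Algebra ℂ K]
    [Algebra.EssFiniteType ℂ K] (Y : Pnt io K), NZ Y →
    IntermediateField.adjoin ℂ {t | ∃ j i i', t = Y j i / Y j i'} = ⊤ → dim ℂ K = adim io →
    ∀ {M : Type} (Φ : MFam B io M), MCls B T Φ →
    vir B T (one Y) (fun _ : M => ()) Φ = B.itg K₀ (Φ K₀ fun _ => y₀)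

end Crest.Agent.X262.Dg87
end
end

-- ▼ part X262/Dg87/Main
section

/-!
# Row 262, road B (helper87): the virtual number of a generic constant configuration

* `cen`     : the integrand on a component centred at a smooth point;
* `off`     : only components centred at the generic point contribute;
* `vir_cst` : the virtual number, `oneStmt`.
-/

set_option autoImplicit false
set_option linter.unusedSectionVars false

noncomputable section

namespace Crest.Agent.X262.Dg87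

open Crest.Agent.X277 Crest.Agent.X277.BD Crest.Agent.X277.Pst Crest.Agent.X277.BD.Cyc
open Crest.Agent.X262.Geo Crest.Agent.X262.Hb
open Crest.Agent.X262.Vb Crest.Agent.X262.Tr89 Crest.Agent.X262.Cnt37
open Crest.Agent.X262.Node22 (scl chr chr_ne)
open Crest.Agent.X262.Lin62 (eft_of_top adjoin_sub)
open MvPolynomial WithZero
open IntermediateField (adjoin)
open Set (range)
open List (replicate)
open IsScalarTower (toAlgHom)

variable {J : Type} [Fintype J] [DecidableEq J] {io : J → Type} [∀ j, Fintype (io j)]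
  [∀ j, DecidableEq (io j)] {A : Type} [Fintype A] {T : Tgt io A} {B : Th}
  {I M : Type} [Fintype I] [Nonempty I] {Φ : MFam B io M}
  {K κ : Type} [Field K] [Algebra ℂ K] [Field κ] [Algebra ℂ κ] {i₀ : (j : J) → io j}
  {Y : Pnt io K} {η : Pnt io κ} {W : RZ ℂ K} {r : ℕ}

theorem nrm_piv (hY : ∀ j, Y j (i₀ j) ≠ 0) (j : J) : nrm i₀ Y j (i₀ j) = 1 := by
  rw [nrm_apply, div_self (hY j)]

theorem prim_nrm (hY : ∀ j, Y j (i₀ j) ≠ 0) (hm : ∀ v, af i₀ Y v ∈ W.1) : Prim W (nrm i₀ Y) :=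
  fun j => ⟨fun i => by
    by_cases hi : i = i₀ j
    · rw [hi, nrm_piv hY]; exact one_mem _
    · rw [nrm_apply]; exact hm ⟨j, i, hi⟩, i₀ j, by rw [nrm_piv hY, map_one]⟩

theorem red_nrm (hY : ∀ j, Y j (i₀ j) ≠ 0) (hη : ∀ j, η j (i₀ j) ≠ 0) {α : κ →ₐ[ℂ] Rf W}
    (h : ∀ v, (plV W).r (af i₀ Y v) = α (af i₀ η v)) :
    redP (plV W) (nrm i₀ Y) = mapP α (nrm i₀ η) := by
  funext j i
  by_cases hi : i = i₀ j
  · rw [redP, mapP, hi, nrm_piv hY, nrm_piv hη, map_one, Pl.r_one]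
  · rw [redP, mapP, nrm_apply, nrm_apply]; exact h ⟨j, i, hi⟩

theorem mcls_nrm [Algebra.EssFiniteType ℂ κ] (hΦ : MCls B T Φ) (hη : ∀ j, η j (i₀ j) ≠ 0)
    (hO : T.On η) : (Φ κ fun _ => nrm i₀ η) = Φ κ fun _ => η :=
  hΦ.scl κ (fun _ => η) (fun _ j => (η j (i₀ j))⁻¹) (fun _ j => inv_ne_zero (hη j))
    (fun _ j => ⟨_, hη j⟩) fun _ => hO

variable [Algebra.EssFiniteType ℂ K] [Algebra.EssFiniteType ℂ κ]

section Cen

variable [Algebra κ (Rf W)] [IsScalarTower ℂ κ (Rf W)] [CharZero κ]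
  [Algebra.EssFiniteType κ (Rf W)]

theorem comb {σ ι : Type} [Fintype ι] {y : σ → K} {e : σ → κ} (hS : Sp (plV W) y e)
    {s : ι → MvPolynomial σ ℂ} (hg : Gen (evH ℂ y) (idl ℂ e) s) {t : K} (h0 : t ≠ 0)
    (h1 : ∀ b, W.v (aeval y (s b)) ≤ W.v t) {q : MvPolynomial σ ℂ} (hq : aeval e q = 0) :
    W.v (aeval y q) ≤ W.v t ∧ (plV W).r (aeval y q / t) ∈
      Submodule.span κ (range fun b => (plV W).r (aeval y (s b) / t)) := by
  obtain ⟨g, h2, z, h3, h4⟩ := hg q hq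
  rw [pow_one] at h3
  obtain ⟨c, rfl⟩ := Ideal.mem_span_range_iff_exists_fun.1 h3
  have h5 : ∀ q : MvPolynomial σ ℂ, aeval y q ∈ W.1 := fun q => (r_aeval (lnr_plV W) hS.mem q).1
  have h6 : W.v (aeval y g) = 1 :=
    (RZ.le_one_iff.2 (h5 g)).antisymm (not_lt.1 ((hS.lt_iff g).not.2 h2))
  have h7 : aeval y g * (aeval y q / t) = ∑ b, aeval y (c b) * (aeval y (s b) / t) := by
    simp only [← mul_div_assoc, ← Finset.sum_div]
    congr 1
    simpa using h4
  have h8 : ∀ b, aeval y (s b) / t ∈ W.1 := fun b => (RZ.le_iff h0).1 (h1 b)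
  have h9 : aeval y q / t ∈ W.1 := by
    have h : W.v (aeval y g * (aeval y q / t)) ≤ 1 :=
      RZ.le_one_iff.2 (h7 ▸ sum_mem fun b _ => mul_mem (h5 _) (h8 b))
    rwa [map_mul, h6, one_mul, RZ.le_one_iff] at h
  refine ⟨(RZ.le_iff h0).2 h9, ?_⟩
  have h10 := congrArg (plV W).r h7
  rw [Pl.r_mul (p := plV W) (h5 g) h9, hS.r_ev, Tree87.r_sum _ fun b _ => mul_mem (h5 _) (h8 b),
    ← Algebra.smul_def] at h10
  rw [← Submodule.smul_mem_iff _ (show aeval e g ≠ 0 from h2), h10]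
  refine sum_mem fun b _ => ?_
  rw [Pl.r_mul (p := plV W) (h5 _) (h8 b), hS.r_ev, ← Algebra.smul_def]
  exact Submodule.smul_mem _ _ (Submodule.subset_span ⟨b, rfl⟩)

theorem cen (hB : B.Ax) (hΦ : MCls B T Φ) (hW : Dvs W) (hY : ∀ j, Y j (i₀ j) ≠ 0)
    (hη : ∀ j, η j (i₀ j) ≠ 0) (hO : T.On η) (hS : Sp (plV W) (af i₀ Y) (af i₀ η))
    (hr : Module.finrank κ (T.Nm (nrm i₀ η)) = r + 1) (hd : r + dim ℂ κ ≤ dim ℂ (Rf W))
    {g : Fin (r + 1) → A}
    (hg : Gen (evH ℂ (af i₀ Y)) (idl ℂ (af i₀ η)) fun b => dhm i₀ (T.F (g b))) {t : K} (h0 : t ≠ 0)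
    (h1 : ∀ b, W.v (aeval (af i₀ Y) (dhm i₀ (T.F (g b)))) ≤ W.v t)
    (h2 : ∃ b, W.v (aeval (af i₀ Y) (dhm i₀ (T.F (g b)))) = W.v t) (m : M → I) :
    ((cst I Y).dv T).val W = W.v t⁻¹ ∧ B.itg (Rf W) (trm B T (cst I Y) m Φ W) =
      bnum (replicate r (mxf κ fun b => (plV W).r (aeval (af i₀ Y) (dhm i₀ (T.F (g b))) / t))) *
        B.itg κ (Φ κ fun _ => η) := by
  have hc : ∀ j, (Y j (i₀ j))⁻¹ ≠ 0 := fun j => inv_ne_zero (hY j)
  have hO' : T.On (nrm i₀ η) := (on_scl_iff T fun j => inv_ne_zero (hη j)).2 hO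
  have h3 := fun a => comb hS hg h0 h1 (q := dhm i₀ (T.F a)) ((pv_nrm' hη _).symm.trans (hO' a))
  have h4 : ∀ a, W.v (pv (nrm i₀ Y) (T.F a)) ≤ W.v t := fun a => by
    rw [pv_nrm' hY]; exact (h3 a).1
  obtain ⟨b, hb⟩ := h2
  have h5 : W.v (pv (nrm i₀ Y) (T.F (g b))) = W.v t := by rw [pv_nrm' hY]; exact hb
  have hP := prim_nrm hY hS.mem
  obtain ⟨q⟩ := ‹Nonempty I›
  refine ⟨?_, ?_⟩
  · rw [← Cfg.dv_gau T (z := cst I Y) (c := fun _ j => (Y j (i₀ j))⁻¹) (fun _ j => ⟨_, hY j⟩)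
      (fun _ => hc), cst_gau hc]
    exact (lin_dv (T := T) (p := plV W) (z := cst I (nrm i₀ Y)) (fun _ => hP) h0 (fun x => h4 x.1)
      ⟨(g b, q), h5⟩).1
  have h6 := itg_cst (I := I) hB hΦ hW hc hP (red_nrm hY hη (α := toAlgHom ℂ κ (Rf W)) hS.res) hO'
    hr hd h0 h4 ⟨_, h5⟩ m
  have h7 : (mxf κ fun b => (plV W).r (aeval (af i₀ Y) (dhm i₀ (T.F (g b))) / t)) =
      mxf κ fun a => (plV W).r (pv (nrm i₀ Y) (T.F a) / t) := by
    simp only [pv_nrm' hY]
    refine Lin62.mxf_congr ⟨b, Pl.r_ne_zero_iff.2 ?_⟩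
      (fun b => Submodule.subset_span ⟨g b, rfl⟩) fun a => (h3 a).2
    change W.v _ = 1
    rw [map_div₀, hb, div_self (RZ.pos h0).ne']
  rw [h7, ← mcls_nrm hΦ hη hO]
  exact h6

theorem tr_of {σ : Type} {y : σ → K} {e : σ → κ} (hS : Sp (plV W) y e)
    {s : Fin (r + 1) → MvPolynomial σ ℂ} (hs : ∀ b, aeval e (s b) = 0) {i : Fin (r + 1)}
    (h6 : aeval y (s i) ≠ 0) (h7 : ∀ b, W.v (aeval y (s b)) ≤ W.v (aeval y (s i)))
    (h : bnum (replicate r (mxf κ fun b => (plV W).r (aeval y (s b) / aeval y (s i)))) ≠ 0) :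
    TR W.v (evH ℂ y) (idl ℂ e) s (aeval y (s 0)) := by
  have h8 : (plV W).r (aeval y (s i) / aeval y (s i)) ≠ 0 := by
    rw [div_self h6, Pl.r_one]; exact one_ne_zero
  have h9 := pind_of_dim h8 (le_dim_of_bnum h8 h)
  have h10 : W.v (aeval y (s 0)) = W.v (aeval y (s i)) := by
    have := Pl.r_ne_zero_iff.1 (h9.ne 0)
    rwa [map_div₀, div_eq_one_iff_eq (RZ.pos h6).ne'] at this
  exact (hS.tr h6 ((hS.lt_iff _).2 (hs i)) h7 h9).of_val h10

end Cen

theorem off (hB : B.Ax) (hΦ : MCls B T Φ) (hT : Smo T (r + 1)) (h₀ : GenPt T (r + 1) η)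
    (hη : ∀ j, η j (i₀ j) ≠ 0) (hY : NZ Y)
    (hK : adjoin ℂ {t | ∃ j i i', t = Y j i / Y j i'} = ⊤) (hd : dim ℂ K = adim io) (hW : Dvs W)
    (h1 : ((cst I Y).dv T).val W ≠ 1) {m : M → I}
    (h2 : B.itg (Rf W) (trm B T (cst I Y) m Φ W) ≠ 0) : ∃ α : κ →ₐ[ℂ] Rf W,
      (∀ v, af i₀ Y v ∈ W.1) ∧ ∀ v, (plV W).r (af i₀ Y v) = α (af i₀ η v) := by
  obtain ⟨q⟩ := ‹Nonempty I›
  have := essFT_Rf hW
  have hO := on_at (T := T) (z := cst I Y) (fun _ => hY) h1 q
  have hP := Cfg.pr_nrm (z := cst I Y) (fun _ => hY) W q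
  have hc := Cfg.nrm_ne W (cst I Y) q
  change T.On (redP (plV W) (scl ((cst I Y).nrm W q) Y)) at hO
  change Prim W (scl ((cst I Y).nrm W q) Y) at hP
  generalize (cst I Y).nrm W q = c at hO hP hc
  choose i₁ hi using fun j => (hP j).2
  have h3 : ∀ j, Y j (i₁ j) ≠ 0 := fun j =>
    right_ne_zero_of_mul (RZ.ne_zero_iff.1 (hi j ▸ one_ne_zero))
  have h4 : ∀ j i, nrm i₁ Y j i = scl c Y j i / scl c Y j (i₁ j) := fun j i => by
    rw [nrm_apply, scl, scl, mul_div_mul_left _ _ (hc j)]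
  have h5 : ∀ j i, nrm i₁ Y j i ∈ W.1 := fun j i => by
    rw [h4, ← RZ.le_one_iff, map_div₀, hi, div_one, RZ.le_one_iff]; exact (hP j).1 i
  have hP' : Prim W (nrm i₁ Y) := fun j => ⟨h5 j, i₁ j, by rw [nrm_piv h3, map_one]⟩
  have hO' : T.On (redP (plV W) (nrm i₁ Y)) := by
    have h6 : ∀ j, (plV W).r (scl c Y j (i₁ j)) ≠ 0 := fun j => Pl.r_ne_zero_iff.2 (hi j)
    rw [show redP (plV W) (nrm i₁ Y) = nrm i₁ (redP (plV W) (scl c Y)) from funext fun j =>
      funext fun i => by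
        rw [redP, h4, Pl.r_div (p := plV W) ((hP j).1 i) (hi j), nrm_apply]; rfl]
    exact (on_scl_iff T fun j => inv_ne_zero (h6 j)).2 hO
  let F := adjoin ℂ (range fun v : Vr io => (plV W).r (nrm i₁ Y v.1 v.2))
  let ζ : Pnt io F := fun j i => ⟨_, IntermediateField.subset_adjoin _ _ ⟨⟨j, i⟩, rfl⟩⟩
  have h6 : ∀ j, ζ j (i₁ j) = 1 := fun j => Subtype.ext (by
    change (plV W).r _ = 1
    rw [nrm_piv h3, Pl.r_one])
  have h7 : ∀ j, ζ j (i₁ j) ≠ 0 := fun j => h6 j ▸ one_ne_zero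
  have h8 : T.On ζ := (on_map T F.val).1 hO'
  have h9 : adjoin ℂ (range (af i₁ ζ)) = ⊤ := gen_af h7 (top_unique
    ((adjoin_sub fun v : Vr io => (plV W).r (nrm i₁ Y v.1 v.2)).ge.trans
      (IntermediateField.adjoin.mono _ _ _ (by
        rintro _ ⟨v, rfl⟩
        exact ⟨v.1, v.2, i₁ v.1, by rw [h6, div_one]⟩))))
  have := eft_of_top h9
  have : Algebra.EssFiniteType F (Rf W) := .of_comp ℂ F _
  have : CharZero F := charZero_of_injective_algebraMap (algebraMap ℂ F).injective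
  by_cases h10 : dim ℂ κ ≤ dim ℂ F
  · have h11 := piv_ne h₀ h7 h8
    obtain ⟨α, hα⟩ := Lin62.exists_hom (gen_af h11 h₀.gen) (ρ := af i₁ ζ) fun p =>
      (idl_eq_of_dim h9 (spec h₀ h7 h8) h10 p).symm
    have h12 : ∀ j i, (plV W).r (nrm i₁ Y j i) = F.val.comp α (η j i / η j (i₁ j)) := fun j i => by
      by_cases h : i = i₁ j
      · rw [h, nrm_piv h3, div_self (h11 j), map_one, Pl.r_one]
      · exact (congrArg Subtype.val ((hα ⟨j, i, h⟩).trans (by rw [af, h6, div_one]))).symm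
    have h13 : ∀ j, W.v (nrm i₁ Y j (i₀ j)) = 1 := fun j => (Pl.r_ne_zero_iff (p := plV W)).1 (by
      rw [h12]; exact (map_ne_zero _).2 (div_ne_zero (hη j) (h11 j)))
    have h14 : ∀ v, af i₀ Y v = nrm i₁ Y v.1 v.2 / nrm i₁ Y v.1 (i₀ v.1) := fun v => by
      rw [nrm_apply, nrm_apply, div_div_div_cancel_right₀ (h3 _), af]
    refine ⟨F.val.comp α, fun v => ?_, fun v => ?_⟩
    · rw [h14, ← RZ.le_one_iff, map_div₀, h13, div_one, RZ.le_one_iff]; exact h5 _ _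
    · rw [h14, Pl.r_div (p := plV W) (h5 _ _) (h13 _), h12, h12, ← map_div₀,
        div_div_div_cancel_right₀ (h11 _), af]
  · obtain ⟨⟨a, ha⟩, S, hS⟩ := hT
    have hc' : ∀ j, (Y j (i₁ j))⁻¹ ≠ 0 := fun j => inv_ne_zero (h3 j)
    have h11 : pv (nrm i₁ Y) (T.F a) ≠ 0 := by
      rw [nrm, Node22.pv_scl (T.hom a)]
      exact mul_ne_zero (chr_ne hc' _) (pv_ne hY hK hd.ge (T.hom a) ha)
    obtain ⟨b, hb⟩ := exists_val_mxf (k := ℂ) (s := fun a => pv (nrm i₁ Y) (T.F a)) ⟨a, h11⟩ W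
    have h12 := dim_Rf' hW
    have h13 := h₀.dm
    have h14 := Loc.dim_tower ℂ F (Rf W)
    rw [itg_cst hB hΦ hW hc' hP' (η := ζ) rfl h8 (hS F ζ (fun j => ⟨_, h7 j⟩) h8).1 (by omega)
      (ne_of_val hb) (fun a => hb ▸ mem_Sec_mxf (fun a => pv (nrm i₁ Y) (T.F a)) a W) ⟨b, rfl⟩,
      bnum_of_ne (by rw [List.length_replicate]; omega)] at h2
    simp at h2

/-- the virtual number of the generic constant configuration -/
theorem vir_cst (hB : B.Ax) (hΦ : MCls B T Φ) {c : ℕ} (hT : Smo T c) (h₀ : GenPt T c η) (hY : NZ Y)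
    (hK : adjoin ℂ {t | ∃ j i i', t = Y j i / Y j i'} = ⊤) (hd : dim ℂ K = adim io) (m : M → I) :
    vir B T (cst I Y) m Φ = B.itg κ (Φ κ fun _ => η) := by
  classical
  obtain _ | r := c
  · obtain ⟨⟨a, ha⟩, -⟩ := hT
    exact (pv_ne h₀.nz h₀.gen h₀.dm.ge (T.hom a) ha (h₀.on a)).elim
  choose i₀ hη using h₀.nz
  have h1 : ∀ j, Y j (i₀ j) ≠ 0 := fun j =>
    pv_X Y ⟨j, i₀ j⟩ ▸ pv_ne hY hK hd.ge (mh_X ⟨j, i₀ j⟩) (X_ne_zero _)
  have hO' : T.On (nrm i₀ η) := (on_scl_iff T fun j => inv_ne_zero (hη j)).2 h₀.on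
  have hr : Module.finrank κ (T.Nm (nrm i₀ η)) = r + 1 :=
    (hT.2.choose_spec κ _ (fun j => ⟨_, nrm_piv hη j ▸ one_ne_zero⟩) hO').1
  obtain ⟨g, hg⟩ := exists_eqs hη h₀.on hr
  have hs : ∀ b, aeval (af i₀ η) (dhm i₀ (T.F (g b))) = 0 := fun b =>
    (pv_nrm' hη _).symm.trans (hO' _)
  have h2 := gen_af h1 hK
  have h3 := gen_af hη h₀.gen
  have h4 : Fintype.card (Af i₀) = dim ℂ κ + (r + 1) := (card_af i₀).trans h₀.dm.symm
  have hG : Gen (evH ℂ (af i₀ Y)) (idl ℂ (af i₀ η)) fun b => dhm i₀ (T.F (g b)) :=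
    gen_evH h3 hs hg (by simpa using h4.le) _
  obtain ⟨W₀, α₀, hW₀, h5, h6, h7⟩ := exists_blw (indep_af h1 hK hd.ge) h2 h3 hs hg h4
  have : CharZero κ := charZero_of_injective_algebraMap (algebraMap ℂ κ).injective
  have h8 : ∀ W : RZ ℂ K, Dvs W → r + dim ℂ κ ≤ dim ℂ (Rf W) := fun W hW => by
    have h12 := dim_Rf' hW
    have h13 := h₀.dm
    omega
  rw [vir, finsum_eq_single _ W₀ fun W hW => ?_, finsum_eq_if, if_pos hW₀]
  · let _ := α₀.toRingHom.toAlgebra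
    have : IsScalarTower ℂ κ (Rf W₀) := .of_algebraMap_eq fun c => (α₀.commutes c).symm
    have := essFT_Rf hW₀
    have : Algebra.EssFiniteType κ (Rf W₀) := .of_comp ℂ κ _
    have : MulArchimedean (plV W₀).V.1.ValueGroup := march_dvs hW₀
    have hS : Sp (plV W₀) (af i₀ Y) (af i₀ η) := ⟨lnr_plV W₀, h5, h6⟩
    obtain ⟨h9, h10⟩ := cen (I := I) hB hΦ hW₀ h1 hη h₀.on hS hr (h8 _ hW₀) hG h7.ne h7.sle
      ⟨0, rfl⟩ m
    rw [h10, hS.bnum_one h2 h3 (surj_plV W₀) h7 hG, od_of_gen hW₀ h9.symm, map_inv₀,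
      TR.nv_eq h7 hW₀ hG (frc_evH h2), ← exp_neg, log_exp]
    simp
  rw [finsum_eq_if]
  split_ifs with hV
  swap
  · rfl
  by_contra h9
  obtain ⟨h10, h11⟩ := mul_ne_zero_iff.1 h9
  obtain ⟨α, h12, h13⟩ := off hB hΦ hT h₀ hη hY hK hd hV
    ((od_eq_zero hV).not.1 (Int.cast_ne_zero.1 h10)) h11
  let _ := α.toRingHom.toAlgebra
  have : IsScalarTower ℂ κ (Rf W) := .of_algebraMap_eq fun c => (α.commutes c).symm
  have := essFT_Rf hV
  have : Algebra.EssFiniteType κ (Rf W) := .of_comp ℂ κ _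
  have hS : Sp (plV W) (af i₀ Y) (af i₀ η) := ⟨lnr_plV W, h12, h13⟩
  obtain ⟨b, hb⟩ := exists_val_mxf (k := ℂ)
    (s := fun b => aeval (af i₀ Y) (dhm i₀ (T.F (g b)))) ⟨0, h7.ne⟩ W
  have h14 : ∀ a, W.v (aeval (af i₀ Y) (dhm i₀ (T.F (g a)))) ≤ _ := fun a =>
    hb ▸ mem_Sec_mxf (fun b => aeval (af i₀ Y) (dhm i₀ (T.F (g b)))) a W
  rw [(cen (I := I) hB hΦ hV h1 hη h₀.on hS hr (h8 _ hV) hG (ne_of_val hb) h14 ⟨b, rfl⟩ m).2] at h11
  exact hW (TR.rz_eq (tr_of hS hs (ne_of_val hb) h14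
    (Int.cast_ne_zero.1 (left_ne_zero_of_mul h11))) h7 hV hW₀ hG (frc_evH h2))

theorem one_eq (Y : Pnt io K) : one Y = cst Unit Y :=
  Cfg.ext (fun _ => rfl) fun _ =>
    (top_unique fun (u : Unit → K) _ => mem_one.2 ⟨u (), rfl⟩ : (K ∙ fun _ : Unit => (1 : K)) = ⊤).symm

theorem oneStmt : OneStmt := fun _ hB _ _ _ _ _ _ _ _ _ _ hT _ _ _ _ _ h₀ _ _ _ _ Y hY hK hd _ _ hΦ =>
  one_eq Y ▸ vir_cst hB hΦ hT h₀ hY hK hd _

end Crest.Agent.X262.Dg87
end
end

-- ▼ part X262/Dg72/Main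

/-!
# Row 262, road B (helper72): the degree zero axiom follows from the one point statement
-/

set_option autoImplicit false
set_option linter.unusedSectionVars false

noncomputable section

namespace Crest.Agent.X262.Dg72

open Crest.Agent.X277 Crest.Agent.X277.BD
open Crest.Agent.X262.Hb Crest.Agent.X262.Vb
open Crest.Agent.X262.Bub96 (hv)
open Crest.Agent.X262.Bub96.Tr (dot)
open Crest.Agent.X262.Dg87 (one OneStmt)

variable {J : Type} [Fintype J] [DecidableEq J] {io : J → Type} [∀ j, Fintype (io j)]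
  [∀ j, DecidableEq (io j)] {A : Type} [Fintype A] {T : Tgt io A} {B : Th} {c : ℕ}
variable {K : Type} [Field K] [Algebra ℂ K] {I M : Type}

omit [Algebra ℂ K] in
theorem hv_zero {n : ℕ} (hn : n = 0) {σ : Polynomial K} (h : σ.natDegree ≤ n) (t : Option K) :
    hv n σ t = σ.coeff 0 := by
  subst hn
  rw [Polynomial.eq_C_of_natDegree_le_zero h]
  cases t <;> simp [hv]

/-- the point of a constant map -/
def cpt (ξ : Dat io 0 I K) : Pnt io K := fun j i => (ξ.f j i).coeff 0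

theorem pt_zero (ξ : Dat io 0 I K) (t : Option K) : ξ.pt t = cpt ξ :=
  funext fun j => funext fun i => hv_zero rfl (ξ.cp.1 j i) t

theorem dot_zero (κ : J → ℕ) : dot κ (0 : J → ℕ) = 0 :=
  Finset.sum_eq_zero fun _ _ => mul_zero _

theorem nrm_zero [Nonempty I] (ξ : Dat io 0 I K) (N : ℕ) : ξ.NrmUp N :=
  fun κ _ L _ _ α W σ hσ h t => by
    have h1 := h (Classical.arbitrary I)
    rw [hv_zero (dot_zero κ) hσ, pt_zero] at h1 ⊢
    exact h1

theorem nz_cpt (ξ : Dat io 0 I K) : NZ (cpt ξ) := pt_zero ξ none ▸ Vb37.nz_pt ξ none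

theorem cfg_one (ξ : Dat io 0 Unit K) : ξ.cfg = one (cpt ξ) := by
  refine Cfg.ext (fun q => pt_zero ξ _) fun κ => eq_top_iff.2 fun u _ => ?_
  refine Dat.mem_cfg.2 ⟨Polynomial.C (u ()), by simp, funext fun q => ?_⟩
  rw [hv_zero (dot_zero κ) (by simp), Polynomial.coeff_C_zero]

/-- the ratios of the coefficients are ratios of the coordinates -/
theorem ratio_mem (ξ : Dat io 0 I K) {k : IntermediateField ℂ K}
    (h : ∀ j i i', cpt ξ j i / cpt ξ j i' ∈ k) (j : J) (i i' : io j) (l l' : ℕ) :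
    (ξ.f j i).coeff l / (ξ.f j i').coeff l' ∈ k := by
  have h0 : ∀ i l, (ξ.f j i).coeff (l + 1) = 0 := fun i l =>
    Polynomial.coeff_eq_zero_of_natDegree_lt ((ξ.cp.1 j i).trans_lt l.succ_pos)
  rcases l with _ | l
  · rcases l' with _ | l'
    · exact h j i i'
    · rw [h0, div_zero]
      exact zero_mem _
  · rw [h0, zero_div]
    exact zero_mem _

variable [Algebra.EssFiniteType ℂ K] {Φ : MFam B io M}

/-- the virtual number of a constant map is the one of its point -/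
theorem vir_one [Fintype I] (hG : Good T c 0) (hB : B.Ax) (ξ : Dat io 0 I K) (m : M → I) (q₀ : I) :
    vir B T ξ.cfg m Φ = vir B T (ξ.res fun _ : Unit => q₀).cfg (fun _ => ()) Φ := by
  obtain ⟨N, hN⟩ := hG.res hB
  rw [← (hN ξ (fun _ : Unit => q₀) (nrm_zero _ _)).2.2]
  have h3 : ∀ q, ξ.cfg.y (m q) = ξ.cfg.y q₀ := fun q => (pt_zero _ _).trans (pt_zero _ _).symm
  have h4 : evF ξ.cfg m Φ = evF ξ.cfg (fun _ => q₀) Φ := by
    funext E _ _ p
    refine congrArg (Φ E) (funext fun q => ?_)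
    exact congrArg (fun y => redP p.toPl fun j i => ((ln y j).gen p.V)⁻¹ * y j i) (h3 q)
  rw [vir_eq_sm B T _ m, vir_eq_sm B T _ fun _ => q₀, h4]

/-- a point which is not generic in its field has virtual number zero -/
theorem vir_small (hB : B.Ax) (hΦ : MCls B T Φ) (η : Dat io 0 Unit K) (hx : η.x () = none)
    (h : adim io < dim ℂ K) : vir B T η.cfg (fun _ => ()) Φ = 0 := by
  classical
  choose i₀ hi₀ using nz_cpt η
  let G : (Σ j, {i // i ≠ i₀ j}) → K := fun v => cpt η v.1 v.2 / cpt η v.1 (i₀ v.1)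
  obtain ⟨h1, h2⟩ := Str37.dim_adjoin_le G
  have h3 : Nat.card (Σ j, {i // i ≠ i₀ j}) = adim io := by
    rw [Nat.card_eq_fintype_card, Fintype.card_sigma, adim]
    exact Finset.sum_congr rfl fun j _ => by simp
  have h4 : ∀ j i, cpt η j i / cpt η j (i₀ j) ∈ IntermediateField.adjoin ℂ (Set.range G) :=
    fun j i => by
      by_cases hi : i = i₀ j
      · rw [hi, div_self (hi₀ j)]
        exact one_mem _
      · exact IntermediateField.subset_adjoin _ _ ⟨⟨j, i, hi⟩, rfl⟩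
  obtain ⟨ζ, hz, s, hs, hf⟩ := Vb37.exists_desc η (IntermediateField.adjoin ℂ (Set.range G)) (by
    rintro t (⟨j, i, i', l, l', rfl⟩ | ⟨q, hq⟩)
    · refine ratio_mem η (fun j i i' => ?_) j i i' l l'
      rw [← div_div_div_cancel_right₀ (hi₀ j)]
      exact div_mem (h4 j i) (h4 j i')
    · rw [hx] at hq
      cases hq)
  have h5 : Cfg.Geq _ _ := Vb37.eqv_cfg (Vb37.eqv_of_scl hz.symm hs hf)
  rw [vir_geq hB hΦ h5 (Dat.cfg_nz _), Vb37.cfg_map,
    Val40.pbStmt B hB T _ _ _ Φ (Dat.cfg_nz _) hΦ, deg_eq_zero _ (by omega), Nat.cast_zero, zero_mul]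

/-- **degree zero** from the one point statement -/
theorem deg0Stmt_of (h : OneStmt) : Deg0Stmt := by
  intro B hB J _ _ io _ _ A _ T c hT K₀ _ _ _ y₀ hy M _ Φ hΦ
  by_cases hM : 3 ≤ Fintype.card M
  swap
  · rw [if_neg (by omega)]
    exact GW_of_not (fun ⟨_, _, _, _, hu⟩ => hM (Vb37.univ_card hu)) Φ
  obtain ⟨K, _, _, _, ξ, hu⟩ := Vb37.exists_univ' (io := io) (d := 0) (M := M)
    (fun j => ⟨(hy.nz j).elim fun i _ => ⟨i⟩, Or.inl rfl⟩) hM
  obtain ⟨a, b, e, hn⟩ := hu.1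
  have := Nonempty.intro a
  obtain ⟨N, hN⟩ := (hT.good 0).vir_eq hB
  have h1 := hN Φ hΦ (ξ := ξ) (m := id) (θ := AlgHom.id ℂ K)
    ⟨ξ, hu, by rw [Vb37.dmap_id]; exact Vb37.eqv_refl _⟩ (nrm_zero _ _)
  rw [deg_id, Nat.cast_one, one_mul, vir_one (hT.good 0) hB ξ id a] at h1
  have h2 : dim ℂ K = adim io + Fintype.card M - 3 := by
    have h3 := hu.2.2
    rw [trdeg_eq_dim, Nat.cast_inj] at h3
    simpa [mdim, adim] using h3
  rw [← h1]
  split_ifs with h3
  · rw [cfg_one]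
    refine h B hB T c hT y₀ hy _ (nz_cpt _) (eq_top_iff.2 (hu.2.1 ▸
      IntermediateField.adjoin_le_iff.2 ?_)) (by omega) Φ hΦ
    rintro t (⟨j, i, i', l, l', rfl⟩ | ⟨q, hq⟩)
    · refine ratio_mem ξ (fun j i i' => IntermediateField.subset_adjoin _ _ ?_) j i i' l l'
      exact ⟨j, i, i', rfl⟩
    · classical
      obtain ⟨n1, n2, n3⟩ := Vb37.Nm3.ne hn
      have h4 : ({a, b, e} : Finset M) = Finset.univ := Finset.eq_univ_of_card _
        ((Finset.card_eq_three.2 ⟨a, b, e, n1, n2, n3, rfl⟩).trans h3.symm)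
      have h5 : q ∈ ({a, b, e} : Finset M) := h4 ▸ Finset.mem_univ q
      simp only [Finset.mem_insert, Finset.mem_singleton] at h5
      rcases h5 with rfl | rfl | rfl
      · rw [hn.1] at hq
        cases hq
      · rw [hn.2.1] at hq
        cases hq
        exact zero_mem _
      · rw [hn.2.2] at hq
        cases hq
        exact one_mem _
  · exact vir_small hB hΦ _ hn.1 (by omega)

end Crest.Agent.X262.Dg72
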